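import Mathlib
import Vale.Agent.Lib.P243.CapMain
import Vale.Agent.Lib.P243.R3.Defs
open MeasureTheory Set Vale.Agent.Lib.P243

/-!
# P243, `r_3 > 1/3`: job J9 (gain point from a chord-length inequality along a ray)

Model setting: `K` is a compact convex subset of the product of the line with the plane, the
first coordinate is the height, and the chord goes from height `z0` to height `z0 + l` over the
point `o`.  If the chord length at the point `o + s • (ξ - o)` is strictly larger than the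
affine interpolation between `l` and the chord length at `ξ`, then there is a gain point: a
point `y` of the projection and a level `t` below the chord length at `y` such that `y` is
outside the homothetic copy of the projection of ratio `1 - t / l` about `o`.
-/

namespace Vale.Agent.Lib.P243.R3

/-- The chord over `o` has length at least `l`. -/
theorem M3g_len_base {K : Set (ℝ × (ℝ × ℝ))} (hK : IsCompact K) (hc : Convex ℝ K)
    {z0 l : ℝ} {o : ℝ × ℝ} (hl : 0 < l) (h0 : (z0, o) ∈ K) (h1 : (z0 + l, o) ∈ K) :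
    l ≤ Cap.len K o := by
  have hsub : Icc z0 (z0 + l) ⊆ Cap.fib K o := by
    intro ζ hζ
    have hθ0 : 0 ≤ (ζ - z0) / l := div_nonneg (by linarith [hζ.1]) hl.le
    have hθ1 : (ζ - z0) / l ≤ 1 := by
      rw [div_le_one hl]
      linarith [hζ.2]
    have hmem := hc h0 h1 (sub_nonneg.2 hθ1) hθ0 (by ring)
    have e : (1 - (ζ - z0) / l) • ((z0, o) : ℝ × (ℝ × ℝ)) + ((ζ - z0) / l) • (z0 + l, o)
        = (ζ, o) := by
      refine Prod.ext ?_ ?_
      · simp only [Prod.fst_add, Prod.smul_fst, smul_eq_mul]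
        field_simp
        ring
      · simp only [Prod.snd_add, Prod.smul_snd]
        rw [← add_smul]
        simp
    rw [e] at hmem
    exact hmem
  have hvol : ENNReal.ofReal l ≤ volume (Cap.fib K o) := by
    have h2 := measure_mono (μ := volume) hsub
    rw [Real.volume_Icc] at h2
    have e : z0 + l - z0 = l := by ring
    rw [e] at h2
    exact h2
  have h3 := ENNReal.toReal_mono (Cap.fib_fin hK o) hvol
  rw [ENNReal.toReal_ofReal hl.le] at h3
  exact h3

/-- The projection of a convex set is closed under the convex combination used below. -/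
theorem M3g_proj_combo {K : Set (ℝ × (ℝ × ℝ))} (hc : Convex ℝ K) {a b : ℝ × ℝ}
    (ha : a ∈ Prod.snd '' K) (hb : b ∈ Prod.snd '' K) {θ : ℝ} (hθ0 : 0 ≤ θ) (hθ1 : θ ≤ 1) :
    (1 - θ) • a + θ • b ∈ Prod.snd '' K := by
  obtain ⟨x, hx, rfl⟩ := ha
  obtain ⟨y, hy, rfl⟩ := hb
  exact ⟨(1 - θ) • x + θ • y, hc hx hy (sub_nonneg.2 hθ1) hθ0 (by ring), by simp⟩

theorem M3g_gain_of_chord {K : Set (ℝ × (ℝ × ℝ))} (hK : IsCompact K) (hc : Convex ℝ K)
    {z0 l : ℝ} {o : ℝ × ℝ} (hl : 0 < l) (h0 : (z0, o) ∈ K) (h1 : (z0 + l, o) ∈ K)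
    {ξ : ℝ × ℝ} (hξ : ξ ∈ Prod.snd '' K) {s : ℝ} (hs0 : 0 ≤ s) (hs1 : s ≤ 1)
    (h : (1 - s) * l + s * Cap.len K ξ < Cap.len K (o + s • (ξ - o))) :
    ∃ y ∈ Prod.snd '' K, ∃ t : ℝ, 0 < t ∧ t < Cap.len K y ∧
      (l ≤ t ∨ ∀ q ∈ Prod.snd '' K, y ≠ o + (1 - t / l) • (q - o)) := by
  have hoP : o ∈ Prod.snd '' K := ⟨(z0, o), h0, rfl⟩
  have hlo : l ≤ Cap.len K o := M3g_len_base hK hc hl h0 h1
  have hfξ : 0 ≤ Cap.len K ξ := Cap.len_nonneg ξ
  have hy : o + s • (ξ - o) ∈ Prod.snd '' K := by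
    have e : o + s • (ξ - o) = (1 - s) • o + s • ξ := by module
    rw [e]
    exact M3g_proj_combo hc hoP hξ hs0 hs1
  have hA0 : 0 ≤ (1 - s) * l + s * Cap.len K ξ :=
    add_nonneg (mul_nonneg (sub_nonneg.2 hs1) hl.le) (mul_nonneg hs0 hfξ)
  refine ⟨o + s • (ξ - o), hy,
    ((1 - s) * l + s * Cap.len K ξ + Cap.len K (o + s • (ξ - o))) / 2, by linarith,
    by linarith, ?_⟩
  by_cases hlt : l ≤ ((1 - s) * l + s * Cap.len K ξ + Cap.len K (o + s • (ξ - o))) / 2
  · exact Or.inl hlt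
  refine Or.inr ?_
  intro q hq heq
  rw [not_le] at hlt
  obtain ⟨t, ht⟩ : ∃ t : ℝ,
      t = ((1 - s) * l + s * Cap.len K ξ + Cap.len K (o + s • (ξ - o))) / 2 := ⟨_, rfl⟩
  rw [← ht] at hlt heq
  have hAt : (1 - s) * l + s * Cap.len K ξ < t := by rw [ht]; linarith
  have ht0 : 0 < t := lt_of_le_of_lt hA0 hAt
  obtain ⟨μ, hμ⟩ : ∃ μ : ℝ, μ = 1 - t / l := ⟨_, rfl⟩
  rw [← hμ] at heq
  have hμl : μ * l = l - t := by
    rw [hμ]
    field_simp
  have hμ0 : 0 < μ := by
    have h2 : 0 < μ * l := by rw [hμl]; linarith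
    by_contra hneg
    rw [not_lt] at hneg
    have h3 : μ * l ≤ 0 := mul_nonpos_of_nonpos_of_nonneg hneg hl.le
    linarith
  -- `μ l < s (l - f ξ)`
  have hkey : μ * l < s * (l - Cap.len K ξ) := by
    rw [hμl]
    nlinarith
  have hs_pos : 0 < s := by
    rcases hs0.lt_or_eq with hs | hs
    · exact hs
    · exfalso
      rw [← hs] at hkey
      have : 0 < μ * l := mul_pos hμ0 hl
      linarith
  have hμs : μ < s := by
    have h2 : s * (l - Cap.len K ξ) ≤ s * l := by nlinarith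
    have h3 : μ * l < s * l := lt_of_lt_of_le hkey h2
    exact lt_of_mul_lt_mul_right h3 hl.le
  obtain ⟨θ, hθ⟩ : ∃ θ : ℝ, θ = μ / s := ⟨_, rfl⟩
  have hθ0 : 0 ≤ θ := by rw [hθ]; exact div_nonneg hμ0.le hs_pos.le
  have hθ1 : θ ≤ 1 := by rw [hθ, div_le_one hs_pos]; exact hμs.le
  have hθs : θ * s = μ := by rw [hθ]; field_simp
  have h3 : s • (ξ - o) = μ • (q - o) := add_left_cancel heq
  have h4 : ξ - o = θ • (q - o) := by
    have e1 : ξ - o = s⁻¹ • (s • (ξ - o)) := by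
      rw [smul_smul, inv_mul_cancel₀ hs_pos.ne', one_smul]
    rw [e1, h3, smul_smul]
    congr 1
    rw [hθ]
    field_simp
  have h5 : ξ = (1 - θ) • o + θ • q := by
    have e2 : ξ = o + (ξ - o) := by abel
    rw [e2, h4]
    module
  have hconc := Cap.len_concave hK hc hoP hq θ hθ0 hθ1
  rw [← h5] at hconc
  have hfq : 0 ≤ Cap.len K q := Cap.len_nonneg q
  have h6 : (1 - θ) * l ≤ Cap.len K ξ := by
    have h7 : (1 - θ) * l ≤ (1 - θ) * Cap.len K o :=
      mul_le_mul_of_nonneg_left hlo (sub_nonneg.2 hθ1)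
    have h8 : 0 ≤ θ * Cap.len K q := mul_nonneg hθ0 hfq
    linarith
  -- multiply by `s`: `(s - μ) l ≤ s f ξ`
  have h9 : s * ((1 - θ) * l) ≤ s * Cap.len K ξ := mul_le_mul_of_nonneg_left h6 hs_pos.le
  have h10 : s * ((1 - θ) * l) = s * l - μ * l := by
    rw [← hθs]
    ring
  rw [h10] at h9
  nlinarith
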